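import Vale.Agent.P343.Main

namespace Vale.Agent.Results.P343.SakodaSipser

open Vale.Agent.P343

theorem result :
    (¬ ∃ p : Polynomial ℝ, ∀ (A Q : Type) [Fintype A] [Fintype Q] (N : TwoNFA A Q),
      ∃ (Q' : Type) (_ : Fintype Q') (D : TwoNFA A Q'),
        D.Deterministic ∧ D.lang = N.lang ∧
          (Fintype.card Q' : ℝ) ≤ p.eval (Fintype.card Q : ℝ)) ∧
    (¬ ∃ p : Polynomial ℝ, ∀ (A Q : Type) [Fintype A] [Fintype Q] (N : TwoNFA A Q),
      N.OneWay → ∃ (Q' : Type) (_ : Fintype Q') (D : TwoNFA A Q'),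
        D.Deterministic ∧ D.lang = N.lang ∧
          (Fintype.card Q' : ℝ) ≤ p.eval (Fintype.card Q : ℝ)) ∧
    (∀ k : ℕ, ∃ (A Q : Type) (_ : Fintype A) (_ : Fintype Q) (N : TwoNFA A Q),
      N.OneWay ∧ Fintype.card Q = 2066 * k + 4 ∧
        ∀ (Q' : Type) [Fintype Q'] (D : TwoNFA A Q'), D.Deterministic → D.lang = N.lang →
          2 ^ k ≤ 2 * (Fintype.card Q' + 1)) :=
  ⟨fun ⟨p, hp⟩ => no_poly_oneWay ⟨p, fun A Q _ _ N _ => hp A Q N⟩, no_poly_oneWay, expo_bound⟩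

end Vale.Agent.Results.P343.SakodaSipser
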